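import Vale.Agent.P030.CertB

/-! Generated data: certificate 2. -/

namespace Vale.Agent.P030.CE.D2

noncomputable section

def L0 : List At := [
    ⟨36045, 0, -32472586⟩, ⟨-45875, 0, -13068239⟩]

def L1 : List At := [
    ⟨-19661, 0, -129189104⟩, ⟨45875, 0, -104740642⟩, ⟨-45875, 0, 9183511⟩, ⟨52429, 0, 56310130⟩,
    ⟨0, 62259, -7831393⟩, ⟨3926, 39125, 23784905⟩]

def L2 : List At := [
    ⟨19661, 0, -37556765⟩, ⟨-60948, 0, -4075311⟩]

def Ta : List Tm := [
    ⟨8388230, 0, 0, 1, 0⟩, ⟨4193548, 1, 0, -1, 0⟩, ⟨-200420966, 1, 0, 0, 1⟩,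
    ⟨-32472586, 65536, -36045, -36045, 65536⟩, ⟨-32472586, 65536, 36045, -36045, -65536⟩,
    ⟨-13068239, 65536, 45875, 45875, 65536⟩, ⟨-13068239, 65536, -45875, 45875, -65536⟩,
    ⟨-129189104, 4681522217, 0, 2577006592, 0⟩, ⟨-104740642, 6399482921, 0, -6012928000, 0⟩,
    ⟨9183511, 6399482921, 0, 6012928000, 0⟩, ⟨56310130, 7043767337, 0, -6871973888, 0⟩,
    ⟨-7831393, 418784215, 0, 0, -8160411648⟩,
    ⟨23784905, 2779615147, 307209500, -514588672, -5128192000⟩]

def Tb : List Tm := [
    ⟨6291456, 0, 0, 1, 0⟩, ⟨4193926, 1, 0, -1, 0⟩, ⟨-92274688, 1, 0, 0, 1⟩,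
    ⟨64945172, 65536, 0, -36045, 0⟩, ⟨26136478, 65536, 0, 45875, 0⟩,
    ⟨-75113530, 7258528809, 0, -5154013184, 0⟩, ⟨-8150622, 21049744, 0, 15977152512, 0⟩]

def la : List ℕ := [
    428756386, 837414818, 535945483, 221034854, 79572548, 44759559, 89916729, 175618614,
    428756386, 837414818, 315277875, 153855603, 93851918, 52791705]

def lb : List ℕ := [
    1295834, 2530928, 6179028, 18856903, 57546706, 140494891, 428756386, 669931854, 535945483,
    146404164, 89306540, 50234931]

theorem cert : Cert (-19324 / 10000) fun x => (1 : ℤ) * ex2 x :=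
  cert_of 1 L0 L1 L2 Ta Tb (-15406922182599387381760) (-2770009747302804094976)
    (-201358448702471362176740795105)
    (-2266563665107752322219034709454)
    (-168679689552604765192324474082)
    1816529554593753664 la lb _
    (by decide +kernel) (by decide +kernel) (by decide +kernel) (by decide +kernel)
    (by decide +kernel) (by decide +kernel) (by decide +kernel) (by decide +kernel)
    (by decide +kernel) (by decide +kernel) (by decide +kernel) (by decide +kernel)
    (by decide +kernel) (by
      have h1 := log2_U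
      have h2 := log2_D
      simp only [QQ]
      push_cast
      linarith)

end

end Vale.Agent.P030.CE.D2
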