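import Vale.Agent.P030.CertD1
import Vale.Agent.P030.CertD2

/-! The two numerical certificates. -/

namespace Vale.Agent.P030

theorem cert1 : Cert (-19324 / 10000) fun _ => 0 := by
  simpa using CE.D1.cert

theorem cert2 : Cert (-19324 / 10000) ex2 := by
  simpa using CE.D2.cert

end Vale.Agent.P030
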