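import Vale.Agent.P030.CertE

/-! From the checker to the certificates. -/

namespace Vale.Agent.P030.CE

open Complex

noncomputable section

def g0 (a : At) : List Tm :=
  [⟨a.w, 65536 + a.q, -a.p, -a.p, 65536 - a.q⟩, ⟨a.w, 65536 - a.q, a.p, -a.p, -(65536 + a.q)⟩]

def g1 (a : At) : Tm :=
  ⟨a.w, 4294967296 + a.p * a.p - a.q * a.q, 2 * a.p * a.q, -131072 * a.p, -131072 * a.q⟩

def k0 (a : At) : Tm := ⟨-2 * a.w, 65536, 0, -a.p, -a.q⟩

def k2 (a : At) : Tm :=
  ⟨2 * a.w, (65536 + a.p) * (65536 + a.p) - a.q * a.q, 2 * (65536 + a.p) * a.q, -262144 * a.p,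
    -262144 * a.q⟩

def T1 (cs : ℤ) (L0 L1 : List At) : List Tm :=
  ⟨14679686 - cs * 6291456, 0, 0, 1, 0⟩ :: ⟨4193548, 1, 0, -1, 0⟩ ::
    ⟨-102758936 - 2 * sw L0 - cs * 188743680, 1, 0, 0, 1⟩ :: (L0.flatMap g0 ++ L1.map g1)

def T2 (L0 L2 : List At) : List Tm :=
  ⟨6291456, 0, 0, 1, 0⟩ :: ⟨4193926, 1, 0, -1, 0⟩ :: ⟨-92274688, 1, 0, 0, 1⟩ ::
    (L0.map k0 ++ L2.map k2)

theorem FT_cons (t : Tm) (T : List Tm) (x : ℝ) :
    FT (t :: T) x = t.k * Real.log ‖t.val x‖ + FT T x := by simp [FT]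

theorem FT_append (T T' : List Tm) (x : ℝ) : FT (T ++ T') x = FT T x + FT T' x := by simp [FT]

theorem cheb_ne {a : ℂ} (ha : ‖a‖ < 1) {t : ℝ} (ht : |t| ≤ 1) : 1 - 2 * a * (t : ℂ) + a ^ 2 ≠ 0 := by
  have h1 : 0 ≤ 1 - t ^ 2 := by nlinarith [abs_le.1 ht]
  have h2 : ((√(1 - t ^ 2) : ℝ) : ℂ) ^ 2 = 1 - (t : ℂ) ^ 2 := by
    rw [← ofReal_pow, Real.sq_sqrt h1]; push_cast; ring
  have n1 : ∀ s : ℝ, s ^ 2 = 1 - t ^ 2 → ‖(t : ℂ) + s * I‖ ≤ 1 := by
    intro s hs
    have : ‖(t : ℂ) + s * I‖ ^ 2 = 1 := by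
      rw [Complex.sq_norm, Complex.normSq_add_mul_I]; linarith
    nlinarith [norm_nonneg ((t : ℂ) + s * I)]
  have e : 1 - 2 * a * (t : ℂ) + a ^ 2 = (1 - a * ((t : ℂ) + (√(1 - t ^ 2) : ℝ) * I)) *
      (1 - a * ((t : ℂ) + (-√(1 - t ^ 2) : ℝ) * I)) := by
    push_cast
    linear_combination (a ^ 2 * (√(1 - t ^ 2) : ℝ) ^ 2) * I_sq - a ^ 2 * h2
  rw [e]
  exact mul_ne_zero (one_sub_ne (mul_lt ha (n1 _ (Real.sq_sqrt h1))))
    (one_sub_ne (mul_lt ha (n1 _ (by rw [neg_sq]; exact Real.sq_sqrt h1))))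

theorem abs_tau_le (x : ℝ) : |tau x| ≤ 1 := by
  rw [tau, abs_div, abs_of_pos (by positivity : (0 : ℝ) < 1 + x ^ 2), div_le_one (by positivity),
    abs_le]
  constructor <;> nlinarith [sq_nonneg (x - 1), sq_nonneg (x + 1)]

theorem log_S : Real.log ‖(65536 : ℂ)‖ = 16 * Real.log 2 := by
  have : ‖(65536 : ℂ)‖ = 2 ^ 16 := by norm_num
  rw [this, Real.log_pow]; norm_num

theorem log_SS : Real.log ‖(4294967296 : ℂ)‖ = 32 * Real.log 2 := by
  have : ‖(4294967296 : ℂ)‖ = 2 ^ 32 := by norm_num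
  rw [this, Real.log_pow]; norm_num

theorem QQ_ne : QQ ≠ 0 := by norm_num [QQ]

theorem pot0 (L : List At) (hL : ∀ a ∈ L, ‖a.z‖ < 1) (x : ℝ) :
    (∀ t ∈ L.flatMap g0, t.val x ≠ 0) ∧ FT (L.flatMap g0) x =
      QQ * potC (toL L) (tau x) + sw L * (32 * Real.log 2 + Real.log (1 + x ^ 2)) := by
  induction L with
  | nil => simp [FT, potC, toL, sw]
  | cons a L ih =>
    obtain ⟨i1, i2⟩ := ih fun b hb => hL b (by simp [hb])
    have hne := cheb_ne (hL a (by simp)) (abs_tau_le x)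
    have hx : ((1 + x ^ 2 : ℝ) : ℂ) ≠ 0 := by exact_mod_cast (by positivity : (1 + x ^ 2 : ℝ) ≠ 0)
    have e : Tm.val ⟨a.w, 65536 + a.q, -a.p, -a.p, 65536 - a.q⟩ x *
        Tm.val ⟨a.w, 65536 - a.q, a.p, -a.p, -(65536 + a.q)⟩ x =
        4294967296 * (((1 + x ^ 2 : ℝ) : ℂ) * (1 - 2 * a.z * (tau x : ℂ) + a.z ^ 2)) := by
      have ht : ((1 + x ^ 2 : ℝ) : ℂ) * (tau x : ℂ) = 2 * x := by
        rw [← ofReal_mul, tau, mul_div_cancel₀ _ (by positivity)]; push_cast; ring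
      have : ((1 + x ^ 2 : ℝ) : ℂ) * (1 - 2 * a.z * (tau x : ℂ) + a.z ^ 2) =
          (1 + x ^ 2) * (1 + a.z ^ 2) - 4 * a.z * x := by
        push_cast at ht ⊢
        linear_combination (-2 * a.z) * ht
      rw [this]
      simp only [Tm.val, At.z]
      push_cast
      linear_combination (-(a.p : ℂ) ^ 2 + 131072 * a.p * x - 4294967296 * x ^ 2
        - a.q ^ 2) * I_sq
    have hprod : Tm.val ⟨a.w, 65536 + a.q, -a.p, -a.p, 65536 - a.q⟩ x *
        Tm.val ⟨a.w, 65536 - a.q, a.p, -a.p, -(65536 + a.q)⟩ x ≠ 0 := by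
      rw [e]; exact mul_ne_zero (by norm_num) (mul_ne_zero hx hne)
    have n1 := left_ne_zero_of_mul hprod
    have n2 := right_ne_zero_of_mul hprod
    constructor
    · intro t ht
      simp only [List.flatMap_cons, List.mem_append, g0, List.mem_cons, List.not_mem_nil,
        or_false] at ht
      rcases ht with (rfl | rfl) | ht
      exacts [n1, n2, i1 t ht]
    · have e2 := congrArg (fun z : ℂ => Real.log ‖z‖) e
      simp only [norm_mul] at e2
      rw [Real.log_mul (norm_ne_zero_iff.2 n1) (norm_ne_zero_iff.2 n2),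
        Real.log_mul (by norm_num) (mul_ne_zero (norm_ne_zero_iff.2 hx) (norm_ne_zero_iff.2 hne)),
        Real.log_mul (norm_ne_zero_iff.2 hx) (norm_ne_zero_iff.2 hne), log_SS, Complex.norm_real,
        Real.norm_eq_abs, abs_of_pos (by positivity)] at e2
      have e3 : potC (toL (a :: L)) (tau x) = a.w / QQ *
          Real.log ‖1 - 2 * a.z * (tau x : ℂ) + a.z ^ 2‖ + potC (toL L) (tau x) := by
        simp [potC, toL]
      have e4 : sw (a :: L) = a.w + sw L := by simp [sw]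
      rw [List.flatMap_cons, FT_append, i2, e3, e4, g0, FT_cons, FT_cons]
      have := QQ_ne
      simp only [FT, List.map_nil, List.sum_nil]
      push_cast
      field_simp
      linear_combination (a.w : ℝ) * e2

theorem pot1 (L : List At) (hL : ∀ a ∈ L, ‖a.z‖ < 1) (x : ℝ) (hx : |x| ≤ 1) :
    (∀ t ∈ L.map g1, t.val x ≠ 0) ∧ FT (L.map g1) x =
      QQ * potC (toL L) x + sw L * (32 * Real.log 2) := by
  induction L with
  | nil => simp [FT, potC, toL, sw]
  | cons a L ih =>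
    obtain ⟨i1, i2⟩ := ih fun b hb => hL b (by simp [hb])
    have hne := cheb_ne (hL a (by simp)) hx
    have e : (g1 a).val x = 4294967296 * (1 - 2 * a.z * (x : ℂ) + a.z ^ 2) := by
      simp only [g1, Tm.val, At.z]
      push_cast
      linear_combination (-(a.q : ℂ) ^ 2) * I_sq
    constructor
    · intro t ht
      simp only [List.map_cons, List.mem_cons] at ht
      rcases ht with rfl | ht
      · rw [e]; exact mul_ne_zero (by norm_num) hne
      · exact i1 t ht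
    · have e3 : potC (toL (a :: L)) x = a.w / QQ *
          Real.log ‖1 - 2 * a.z * (x : ℂ) + a.z ^ 2‖ + potC (toL L) x := by
        simp [potC, toL]
      have e4 : sw (a :: L) = a.w + sw L := by simp [sw]
      rw [List.map_cons, FT_cons, i2, e3, e4, e, norm_mul,
        Real.log_mul (by norm_num) (norm_ne_zero_iff.2 hne), log_SS]
      have := QQ_ne
      simp only [g1]
      push_cast
      field_simp
      ring

theorem pot2 (L : List At) (hL : ∀ a ∈ L, ‖a.z‖ < 1) (x : ℝ) (hx : |2 * x - 1| ≤ 1) :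
    (∀ t ∈ L.map k2, t.val x ≠ 0) ∧ FT (L.map k2) x =
      QQ * (2 * potC (toL L) (2 * x - 1)) + sw L * (64 * Real.log 2) := by
  induction L with
  | nil => simp [FT, potC, toL, sw]
  | cons a L ih =>
    obtain ⟨i1, i2⟩ := ih fun b hb => hL b (by simp [hb])
    have hne := cheb_ne (hL a (by simp)) hx
    have e : (k2 a).val x = 4294967296 * (1 - 2 * a.z * ((2 * x - 1 : ℝ) : ℂ) + a.z ^ 2) := by
      simp only [k2, Tm.val, At.z]
      push_cast
      linear_combination (-(a.q : ℂ) ^ 2) * I_sq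
    constructor
    · intro t ht
      simp only [List.map_cons, List.mem_cons] at ht
      rcases ht with rfl | ht
      · rw [e]; exact mul_ne_zero (by norm_num) hne
      · exact i1 t ht
    · have e3 : potC (toL (a :: L)) (2 * x - 1) = a.w / QQ *
          Real.log ‖1 - 2 * a.z * ((2 * x - 1 : ℝ) : ℂ) + a.z ^ 2‖ + potC (toL L) (2 * x - 1) := by
        simp [potC, toL]
      have e4 : sw (a :: L) = a.w + sw L := by simp [sw]
      rw [List.map_cons, FT_cons, i2, e3, e4, e, norm_mul,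
        Real.log_mul (by norm_num) (norm_ne_zero_iff.2 hne), log_SS]
      have := QQ_ne
      simp only [k2]
      push_cast
      field_simp
      ring

theorem potd (L : List At) (hL : ∀ a ∈ L, ‖a.z‖ < 1) (x : ℝ) (hx : |x| ≤ 1) :
    (∀ t ∈ L.map k0, t.val x ≠ 0) ∧ FT (L.map k0) x =
      QQ * (-2 * potD (toL L) x) - sw L * (32 * Real.log 2) := by
  induction L with
  | nil => simp [FT, potD, toL, sw]
  | cons a L ih =>
    obtain ⟨i1, i2⟩ := ih fun b hb => hL b (by simp [hb])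
    have hne := one_sub_ne (mul_lt (hL a (by simp)) (v := (x : ℂ)) (by simpa using hx))
    have e : (k0 a).val x = 65536 * (1 - a.z * (x : ℂ)) := by
      simp only [k0, Tm.val, At.z]
      push_cast
      ring
    constructor
    · intro t ht
      simp only [List.map_cons, List.mem_cons] at ht
      rcases ht with rfl | ht
      · rw [e]; exact mul_ne_zero (by norm_num) hne
      · exact i1 t ht
    · have e3 : potD (toL (a :: L)) x = a.w / QQ *
          Real.log ‖1 - a.z * (x : ℂ)‖ + potD (toL L) x := by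
        simp [potD, toL]
      have e4 : sw (a :: L) = a.w + sw L := by simp [sw]
      rw [List.map_cons, FT_cons, i2, e3, e4, e, norm_mul,
        Real.log_mul (by norm_num) (norm_ne_zero_iff.2 hne), log_S]
      have := QQ_ne
      simp only [k0]
      push_cast
      field_simp
      ring

theorem val_x (k : ℤ) (x : ℝ) : Tm.val ⟨k, 0, 0, 1, 0⟩ x = x := by simp [Tm.val]

theorem val_1x (k : ℤ) (x : ℝ) : Tm.val ⟨k, 1, 0, -1, 0⟩ x = ((1 - x : ℝ) : ℂ) := by
  simp [Tm.val]; ring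

theorem val_i (k : ℤ) (x : ℝ) : Tm.val ⟨k, 1, 0, 0, 1⟩ x ≠ 0 ∧
    Real.log ‖Tm.val ⟨k, 1, 0, 0, 1⟩ x‖ = Real.log (1 + x ^ 2) / 2 := by
  have e : Tm.val ⟨k, 1, 0, 0, 1⟩ x = ((1 : ℝ) : ℂ) + x * I := by simp [Tm.val]; ring
  have h : ‖((1 : ℝ) : ℂ) + x * I‖ ^ 2 = 1 + x ^ 2 := by
    rw [Complex.sq_norm, Complex.normSq_add_mul_I]; ring
  rw [e]
  constructor
  · intro h1
    rw [h1] at h
    simp at h
    nlinarith [sq_nonneg x]
  · rw [← h, Real.log_pow]; push_cast; ring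

theorem log_tau {x : ℝ} (h0 : x ≠ 0) :
    Real.log |tau x| = Real.log 2 + Real.log |x| - Real.log (1 + x ^ 2) := by
  rw [Real.log_abs, Real.log_abs, tau, Real.log_div (mul_ne_zero two_ne_zero h0) (by positivity),
    Real.log_mul two_ne_zero h0]

theorem log_one_sub_tau {x : ℝ} (h1 : x < 1) :
    Real.log (1 - tau x) = 2 * Real.log (1 - x) - Real.log (1 + x ^ 2) := by
  have : 1 - tau x = (1 - x) ^ 2 / (1 + x ^ 2) := by
    rw [tau]; field_simp; ring
  rw [this, Real.log_div (pow_ne_zero _ (by linarith)) (by positivity), Real.log_pow]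
  norm_num

theorem U1_eq (cs : ℤ) {L0 L1 : List At} (h0 : inD L0 = true) (h1 : inD L1 = true) {x : ℝ}
    (hx : -1 < x) (hx' : x < 1) (hx0 : x ≠ 0) :
    (∀ t ∈ T1 cs L0 L1, t.val x ≠ 0) ∧
      QQ * (U1 (378 / QQ) (toL L0) (toL L1) x + cs * ex2 x) = FT (T1 cs L0 L1) x +
        (49283072 - 32 * sw L0 - 32 * sw L1 + cs * 18874368) * Real.log 2 := by
  obtain ⟨a1, a2⟩ := pot0 L0 (inD_sound h0) x
  obtain ⟨b1, b2⟩ := pot1 L1 (inD_sound h1) x (abs_le.2 ⟨hx.le, hx'.le⟩)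
  constructor
  · intro t ht
    simp only [T1, List.mem_cons, List.mem_append] at ht
    rcases ht with rfl | rfl | rfl | ht | ht
    · rw [val_x]; exact_mod_cast hx0
    · rw [val_1x]; exact_mod_cast (by linarith : (1 - x : ℝ) ≠ 0)
    · exact (val_i _ x).1
    · exact a1 t ht
    · exact b1 t ht
  · rw [T1, FT_cons, FT_cons, FT_cons, FT_append, a2, b2, val_x, val_1x, (val_i _ x).2, U1, ex2,
      log_tau hx0, log_one_sub_tau hx', Complex.norm_real, Complex.norm_real, Real.norm_eq_abs,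
      Real.norm_eq_abs, Real.log_abs (1 - x)]
    simp only [QQ]
    push_cast
    ring

theorem U2_eq {L0 L2 : List At} (h0 : inD L0 = true) (h2 : inD L2 = true) {x : ℝ}
    (hx : 0 < x) (hx' : x < 1) :
    (∀ t ∈ T2 L0 L2, t.val x ≠ 0) ∧
      QQ * U2 (378 / QQ) (toL L0) (toL L2) x = FT (T2 L0 L2) x +
        (6291456 + 32 * sw L0 - 64 * sw L2) * Real.log 2 := by
  obtain ⟨a1, a2⟩ := potd L0 (inD_sound h0) x (abs_le.2 ⟨by linarith, hx'.le⟩)
  obtain ⟨b1, b2⟩ := pot2 L2 (inD_sound h2) x (abs_le.2 ⟨by linarith, by linarith⟩)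
  constructor
  · intro t ht
    simp only [T2, List.mem_cons, List.mem_append] at ht
    rcases ht with rfl | rfl | rfl | ht | ht
    · rw [val_x]; exact_mod_cast hx.ne'
    · rw [val_1x]; exact_mod_cast (by linarith : (1 - x : ℝ) ≠ 0)
    · exact (val_i _ x).1
    · exact a1 t ht
    · exact b1 t ht
  · have := log_tau hx.ne'
    rw [Real.log_abs] at this
    rw [T2, FT_cons, FT_cons, FT_cons, FT_append, a2, b2, val_x, val_1x, (val_i _ x).2, U2, this,
      log_one_sub_tau hx', Complex.norm_real, Complex.norm_real, Real.norm_eq_abs,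
      Real.norm_eq_abs, Real.log_abs (1 - x)]
    simp only [QQ]
    push_cast
    ring

theorem cert_of (cs : ℤ) (L0 L1 L2 : List At) (Ta Tb : List Tm) (M1 M2 e0 e1 e2 cl : ℤ)
    (la lb : List ℕ) (E : ℝ)
    (h0 : inD L0 = true) (h1 : inD L1 = true) (h2 : inD L2 = true)
    (ha : T1 cs L0 L1 = Ta) (hb : T2 L0 L2 = Tb)
    (ca : cover 4294967296 M1 Ta la (-2147483648) = true) (sa : la.sum = 4294967296)
    (cb : cover 4294967296 M2 Tb lb 0 = true) (sb : lb.sum = 2147483648)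
    (he0 : enU L0 = e0) (he1 : enU L1 = e1) (he2 : enU L2 = e2)
    (hcl : 37748736 * (49283072 - 32 * sw L1 + cs * 18874368 + 6291456 - 64 * sw L2
      - 32 * sk Ta - 32 * sk Tb) + 32 * (sw L0 ^ 2 + sw L1 ^ 2 + 2 * sw L2 ^ 2)
      - 2 * 37748736 ^ 2 = cl)
    (hE : (M1 + M2) / 2 ^ 40 * QQ + (e0 + e1 + 2 * e2) / (4 * 2 ^ 40) + cl * Real.log 2
      ≤ E * QQ ^ 2) :
    Cert E fun x => cs * ex2 x := by
  have hQ : 0 < QQ := by norm_num [QQ]
  have hl : Real.log ((4294967296 : ℕ) : ℝ) = 32 * Real.log 2 := by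
    have : ((4294967296 : ℕ) : ℝ) = 2 ^ 32 := by norm_num
    rw [this, Real.log_pow]; norm_num
  refine ⟨378 / QQ, (M1 / 2 ^ 40 + (49283072 - 32 * sw L0 - 32 * sw L1 + cs * 18874368
    - 32 * sk Ta) * Real.log 2) / QQ, (M2 / 2 ^ 40 + (6291456 + 32 * sw L0 - 64 * sw L2
    - 32 * sk Tb) * Real.log 2) / QQ, toL L0, toL L1, toL L2, by positivity, toL_norm h0,
    toL_norm h1, toL_norm h2, ?_, ?_, ?_⟩
  · intro x hx hx' hx0
    obtain ⟨a1, a2⟩ := U1_eq cs h0 h1 hx hx' hx0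
    rw [ha] at a1 a2
    have := cover_sound (by norm_num) la ca x (by push_cast; linarith)
      (by rw [sa]; push_cast; linarith) a1
    rw [hl] at this
    rw [le_div_iff₀ hQ, mul_comm, a2]
    have h3 : FT Ta x + sk Ta * (32 * Real.log 2) ≤ M1 / 2 ^ 40 := by
      rw [le_div_iff₀ (by positivity)]; exact this
    linarith
  · intro x hx hx'
    obtain ⟨a1, a2⟩ := U2_eq h0 h2 hx hx'
    rw [hb] at a1 a2
    have := cover_sound (by norm_num) lb cb x (by push_cast; linarith)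
      (by rw [sb]; push_cast; linarith) a1
    rw [hl] at this
    rw [le_div_iff₀ hQ, mul_comm, a2]
    have h3 : FT Tb x + sk Tb * (32 * Real.log 2) ≤ M2 / 2 ^ 40 := by
      rw [le_div_iff₀ (by positivity)]; exact this
    linarith
  · have n0 := enU_sound h0
    have n1 := enU_sound h1
    have n2 := enU_sound h2
    rw [he0] at n0
    rw [he1] at n1
    rw [he2] at n2
    have hcl' : (cl : ℝ) = 37748736 * (49283072 - 32 * sw L1 + cs * 18874368 + 6291456
      - 64 * sw L2 - 32 * sk Ta - 32 * sk Tb) + 32 * (sw L0 ^ 2 + sw L1 ^ 2 + 2 * sw L2 ^ 2)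
      - 2 * 37748736 ^ 2 := by rw [← hcl]; push_cast; ring
    rw [hcl'] at hE
    simp only [QQ] at *
    linarith

end

end Vale.Agent.P030.CE
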