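import Vale.Agent.P030.Defs
import Vale.Agent.P322.EngB

/-! A verified checker for upper bounds of sums of logarithms of moduli of affine functions. -/

namespace Vale.Agent.P030.CE

open Vale.Agent.P322.Eng Complex

noncomputable section

/-- the term `k * log ‖(a + b i) + (c + d i) x‖` -/
structure Tm where
  k : ℤ
  a : ℤ
  b : ℤ
  c : ℤ
  d : ℤ
  deriving DecidableEq

def Tm.val (t : Tm) (x : ℝ) : ℂ := (t.a + t.b * I) + (t.c + t.d * I) * x

def FT (T : List Tm) (x : ℝ) : ℝ := (T.map fun t => (t.k : ℝ) * Real.log ‖t.val x‖).sum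

def sk (T : List Tm) : ℤ := (T.map fun t => t.k).sum

def frcI {α : Type} (z : ℤ) (k : ℤ → α) : α :=
  Int.rec (fun n => frc n fun n => k (Int.ofNat n)) (fun n => frc n fun n => k (Int.negSucc n)) z

theorem frcI_eq {α : Type} (z : ℤ) (k : ℤ → α) : frcI z k = k z := by
  cases z <;> simp only [frcI, frc_eq]

theorem isub (a b : ℤ) : Int.sub a b = a - b := rfl

theorem ndiv (a b : ℕ) : Nat.div a b = a / b := rfl

theorem iediv (a b : ℤ) : Int.ediv a b = a / b := rfl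

def lgU (n : ℕ) : ℤ := Int.ofNat (Nat.add (logU n) 22040)

def lgD (n : ℕ) : ℤ := Int.subNatNat (logD n) 22040

theorem log2_U : Real.log 2 * 2 ^ 40 ≤ 762123385050 := by
  have := Real.log_two_lt_d9
  norm_num at this ⊢
  linarith

theorem log2_D : 762123384499 ≤ Real.log 2 * 2 ^ 40 := by
  have := Real.log_two_gt_d9
  norm_num at this ⊢
  linarith

theorem log_div_pow {n : ℕ} (hn : 1 ≤ n) :
    Real.log ((n : ℝ) / 2 ^ 40) = Real.log n - 40 * Real.log 2 := by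
  have : (0 : ℝ) < n := by exact_mod_cast hn
  rw [Real.log_div this.ne' (by positivity), Real.log_pow]
  norm_num

theorem le_lgU {n : ℕ} (hn : 1 ≤ n) : Real.log n * 2 ^ 40 ≤ (lgU n : ℝ) := by
  have h := le_logU hn
  rw [log_div_pow hn] at h
  have h2 := log2_U
  have : (lgU n : ℝ) = logU n + 22040 := by simp [lgU]
  rw [this]
  linarith

theorem lgD_le {n : ℕ} (hn : 1 ≤ n) : (lgD n : ℝ) ≤ Real.log n * 2 ^ 40 := by
  have h := logD_le hn
  rw [log_div_pow hn] at h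
  have h2 := log2_D
  have : (lgD n : ℝ) = logD n - 22040 := by simp [lgD, Int.subNatNat_eq_coe]
  rw [this]
  linarith

/-- signed logarithm bound -/
def klg (k : ℤ) (n : ℕ) : ℤ :=
  Int.rec (fun m => Int.mul (Int.ofNat m) (lgU n)) (fun m => Int.mul (Int.negSucc m) (lgD n)) k

theorem le_klg (k : ℤ) {n : ℕ} (hn : 1 ≤ n) : k * Real.log n * 2 ^ 40 ≤ (klg k n : ℝ) := by
  cases k with
  | ofNat m =>
    have := le_lgU hn
    simp only [klg, Int.mul_def, Int.ofNat_eq_natCast]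
    push_cast
    rw [mul_assoc]
    exact mul_le_mul_of_nonneg_left this (Nat.cast_nonneg m)
  | negSucc m =>
    have := lgD_le hn
    simp only [klg, Int.mul_def]
    rw [Int.cast_mul, mul_assoc]
    refine mul_le_mul_of_nonpos_left this ?_
    exact_mod_cast (Int.negSucc_lt_zero m).le

def nsq (a b : ℤ) : ℕ := Nat.add (Nat.mul a.natAbs a.natAbs) (Nat.mul b.natAbs b.natAbs)

theorem nsq_cast (a b : ℤ) : (nsq a b : ℝ) = ‖(a : ℂ) + b * I‖ ^ 2 := by
  have h : ((a : ℂ) + b * I) = ((a : ℝ) : ℂ) + ((b : ℝ) : ℂ) * I := by push_cast; ring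
  rw [h, Complex.sq_norm, Complex.normSq_add_mul_I]
  simp only [nsq, Nat.add_eq, Nat.mul_eq]
  push_cast
  simp only [Nat.cast_natAbs, Int.cast_abs]
  rw [abs_mul_abs_self, abs_mul_abs_self]
  ring

def fin (M c0 s1 s2 s3 s4 s5 s6 s7 : ℤ) (e : ℕ) : Bool :=
  frc s1.natAbs fun A =>
  frcI (Int.ediv s2 2199023255552) fun g =>
  let quad : ℤ := cond (Nat.blt 0 g.toNat && Nat.ble A (Nat.mul 2 g.toNat))
    (Int.ofNat (Nat.add (Nat.div (Nat.mul A A) (Nat.mul 4 g.toNat)) 1)) (Int.sub (Int.ofNat A) g)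
  let rest : ℕ := Nat.add (Nat.add (Nat.add (Nat.div s3.natAbs (3 * 2 ^ 80))
    (Nat.div s4.natAbs (4 * 2 ^ 120))) (Nat.add (Nat.div s5.natAbs (5 * 2 ^ 160))
    (Nat.div s6.natAbs (6 * 2 ^ 200)))) (Nat.add (Nat.div s7.natAbs (7 * 2 ^ 240)) (Nat.add e 5))
  decide (Int.add c0 (Int.mul 2 (Int.add quad (Int.ofNat rest))) ≤ Int.mul 2 M)

def polyS (s1 s2 s3 s4 s5 s6 s7 : ℝ) (y : ℝ) : ℝ :=
  s1 * y - s2 / (2 * 2 ^ 40) * y ^ 2 + s3 / (3 * 2 ^ 80) * y ^ 3 - s4 / (4 * 2 ^ 120) * y ^ 4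
    + s5 / (5 * 2 ^ 160) * y ^ 5 - s6 / (6 * 2 ^ 200) * y ^ 6 + s7 / (7 * 2 ^ 240) * y ^ 7

theorem mono_le (s : ℤ) (D : ℕ) (hD : 0 < D) (y : ℝ) (hy : |y| ≤ 1) (k : ℕ) :
    |(s : ℝ) / D * y ^ k| ≤ ((s.natAbs / D : ℕ) : ℝ) + 1 := by
  have hD' : (0 : ℝ) < D := by exact_mod_cast hD
  rw [abs_mul, abs_pow, abs_div, abs_of_pos hD']
  have h1 : |y| ^ k ≤ 1 := pow_le_one₀ (abs_nonneg y) hy
  have h2 : |(s : ℝ)| / D ≤ ((s.natAbs / D : ℕ) : ℝ) + 1 := by
    rw [div_le_iff₀ hD']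
    have := Nat.lt_div_mul_add (a := s.natAbs) hD
    have h3 : (s.natAbs : ℝ) ≤ ((s.natAbs / D : ℕ) : ℝ) * D + D := by exact_mod_cast this.le
    rw [Nat.cast_natAbs, Int.cast_abs] at h3
    linarith
  calc |(s : ℝ)| / D * |y| ^ k ≤ |(s : ℝ)| / D * 1 := by gcongr
    _ ≤ _ := by linarith

theorem quad_le (A : ℕ) (g : ℤ) (u : ℝ) (h0 : 0 ≤ u) (h1 : u ≤ 1) :
    A * u - g * u ^ 2 ≤ ((cond (Nat.blt 0 g.toNat && Nat.ble A (Nat.mul 2 g.toNat))
    (Int.ofNat (Nat.add (Nat.div (Nat.mul A A) (Nat.mul 4 g.toNat)) 1))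
    (Int.sub (Int.ofNat A) g) : ℤ) : ℝ) := by
  cases hc : (Nat.blt 0 g.toNat && Nat.ble A (Nat.mul 2 g.toNat)) with
  | true =>
    simp only [Bool.and_eq_true, Nat.blt_eq, Nat.ble_eq, Nat.mul_eq] at hc
    obtain ⟨G, rfl⟩ : ∃ G : ℕ, g = G := ⟨g.toNat, by omega⟩
    simp only [Int.toNat_natCast] at hc
    have hG : (0 : ℝ) < G := by exact_mod_cast hc.1
    simp only [cond_true, Int.ofNat_eq_natCast, Int.toNat_natCast, Nat.add_eq, Nat.mul_eq,
      Int.cast_natCast]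
    have := Nat.lt_div_mul_add (a := A * A) (b := 4 * G) (by omega)
    have h3 : (A : ℝ) * A ≤ ((A * A / (4 * G) : ℕ) : ℝ) * (4 * G) + 4 * G := by
      exact_mod_cast this.le
    have e : (((A * A).div (4 * G) + 1 : ℕ) : ℝ) = ((A * A / (4 * G) : ℕ) : ℝ) + 1 := by
      push_cast [Nat.cast_add]; rfl
    rw [e]
    have h4 : (A * u - G * u ^ 2) * (4 * G) ≤ A * A := by nlinarith [sq_nonneg (A - 2 * G * u)]
    by_contra hcon
    push Not at hcon
    nlinarith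
  | false =>
    simp only [cond_false, isub, Int.ofNat_eq_natCast]
    push_cast
    have hA : (0 : ℝ) ≤ A := Nat.cast_nonneg A
    rcases le_or_gt g 0 with hg | hg
    · have hg' : (g : ℝ) ≤ 0 := by exact_mod_cast hg
      nlinarith [mul_le_mul_of_nonneg_left h1 hA, mul_nonneg (sub_nonneg.2 h1) (add_nonneg h0 zero_le_one)]
    · have h2 : 2 * g ≤ A := by
        by_contra hcon
        have : (Nat.blt 0 g.toNat && Nat.ble A (Nat.mul 2 g.toNat)) = true := by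
          simp only [Bool.and_eq_true, Nat.blt_eq, Nat.ble_eq, Nat.mul_eq]
          omega
        rw [this] at hc
        exact absurd hc (by simp)
      have h2' : 2 * (g : ℝ) ≤ A := by exact_mod_cast h2
      have hg' : (0 : ℝ) < g := by exact_mod_cast hg
      nlinarith [mul_nonneg (sub_nonneg.2 h1) (sub_nonneg.2 h2'),
        mul_nonneg (sub_nonneg.2 h1) (mul_nonneg hg'.le (sub_nonneg.2 h1))]

theorem fin_sound {M c0 s1 s2 s3 s4 s5 s6 s7 : ℤ} {e : ℕ}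
    (h : fin M c0 s1 s2 s3 s4 s5 s6 s7 e = true) {y : ℝ} (hy : |y| ≤ 1) :
    c0 + 2 * (polyS s1 s2 s3 s4 s5 s6 s7 y + e) ≤ 2 * M := by
  simp only [fin, frc_eq, frcI_eq, decide_eq_true_eq, Int.add_def, Int.mul_def] at h
  have hq := quad_le s1.natAbs (Int.ediv s2 2199023255552) |y| (abs_nonneg y) hy
  generalize (cond (Nat.blt 0 (Int.ediv s2 2199023255552).toNat &&
    Nat.ble s1.natAbs (Nat.mul 2 (Int.ediv s2 2199023255552).toNat))
    (Int.ofNat (Nat.add (Nat.div (Nat.mul s1.natAbs s1.natAbs)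
      (Nat.mul 4 (Int.ediv s2 2199023255552).toNat)) 1))
    (Int.sub (Int.ofNat s1.natAbs) (Int.ediv s2 2199023255552)) : ℤ) = Q at h hq
  have h3 := mono_le s3 (3 * 2 ^ 80) (by positivity) y hy 3
  have h4 := mono_le s4 (4 * 2 ^ 120) (by positivity) y hy 4
  have h5 := mono_le s5 (5 * 2 ^ 160) (by positivity) y hy 5
  have h6 := mono_le s6 (6 * 2 ^ 200) (by positivity) y hy 6
  have h7 := mono_le s7 (7 * 2 ^ 240) (by positivity) y hy 7
  simp only [Nat.add_eq, ndiv, Int.ofNat_eq_natCast] at h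
  generalize s3.natAbs / (3 * 2 ^ 80) = n3 at h h3
  generalize s4.natAbs / (4 * 2 ^ 120) = n4 at h h4
  generalize s5.natAbs / (5 * 2 ^ 160) = n5 at h h5
  generalize s6.natAbs / (6 * 2 ^ 200) = n6 at h h6
  generalize s7.natAbs / (7 * 2 ^ 240) = n7 at h h7
  have h' := (Int.cast_le (R := ℝ)).2 h
  push_cast at h'
  have hg : ((Int.ediv s2 2199023255552 : ℤ) : ℝ) * 2199023255552 ≤ s2 := by
    have := Int.ediv_mul_le s2 (b := 2199023255552) (by norm_num)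
    exact_mod_cast this
  have h1 : (s1 : ℝ) * y ≤ (s1.natAbs : ℝ) * |y| := by
    rw [Nat.cast_natAbs, Int.cast_abs, ← abs_mul]; exact le_abs_self _
  have h2 : ((Int.ediv s2 2199023255552 : ℤ) : ℝ) * |y| ^ 2 ≤ s2 / (2 * 2 ^ 40) * y ^ 2 := by
    rw [sq_abs]
    refine mul_le_mul_of_nonneg_right ?_ (sq_nonneg y)
    rw [le_div_iff₀ (by positivity)]
    norm_num
    exact hg
  push_cast at h3 h4 h5 h6 h7
  have a3 := le_abs_self ((s3 : ℝ) / (3 * 2 ^ 80) * y ^ 3)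
  have a4 := neg_abs_le ((s4 : ℝ) / (4 * 2 ^ 120) * y ^ 4)
  have a5 := le_abs_self ((s5 : ℝ) / (5 * 2 ^ 160) * y ^ 5)
  have a6 := neg_abs_le ((s6 : ℝ) / (6 * 2 ^ 200) * y ^ 6)
  have a7 := le_abs_self ((s7 : ℝ) / (7 * 2 ^ 240) * y ^ 7)
  unfold polyS
  linarith

/-- analytic core: Taylor expansion of the logarithm with a rounded ratio -/
theorem log_taylor (β γ : ℂ) (y ε : ℝ) (hy : |y| ≤ 1) (hβ : ‖β‖ ^ 2 ≤ 1 / 4) (hε : ‖β - γ‖ ≤ ε)
    (hε' : ε ≤ 1 / 2) :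
    |Real.log ‖1 + β * y‖ - (γ.re * y - (γ ^ 2).re / 2 * y ^ 2 + (γ ^ 3).re / 3 * y ^ 3
      - (γ ^ 4).re / 4 * y ^ 4 + (γ ^ 5).re / 5 * y ^ 5 - (γ ^ 6).re / 6 * y ^ 6
      + (γ ^ 7).re / 7 * y ^ 7)| ≤ (‖β‖ ^ 2) ^ 4 / 4 + 7 * ε := by
  have hb : ‖β‖ ≤ 1 / 2 := by nlinarith [norm_nonneg β]
  have hg : ‖γ‖ ≤ 1 := by
    have := norm_sub_norm_le γ β
    rw [norm_sub_rev] at this
    linarith
  have hy' : ‖(y : ℂ)‖ ≤ 1 := by simpa using hy
  have hz : ‖β * y‖ ≤ ‖β‖ := by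
    rw [norm_mul]; exact mul_le_of_le_one_right (norm_nonneg _) hy'
  have h1 := Complex.norm_log_sub_logTaylor_le 7 (z := β * y) (by linarith)
  have h2 : ‖β * y‖ ^ (7 + 1) * (1 - ‖β * y‖)⁻¹ / ((7 : ℕ) + 1) ≤ (‖β‖ ^ 2) ^ 4 / 4 := by
    have a1 : (1 - ‖β * y‖)⁻¹ ≤ 2 := by
      rw [inv_le_comm₀ (by linarith) (by norm_num)]; linarith
    have a2 : ‖β * y‖ ^ (7 + 1) ≤ (‖β‖ ^ 2) ^ 4 := by
      rw [← pow_mul]; exact pow_le_pow_left₀ (norm_nonneg _) hz _
    have a3 : ‖β * y‖ ^ (7 + 1) * (1 - ‖β * y‖)⁻¹ ≤ (‖β‖ ^ 2) ^ 4 * 2 :=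
      mul_le_mul a2 a1 (inv_nonneg.2 (by linarith)) (by positivity)
    push_cast
    linarith
  have hd : ∀ k : ℕ, 1 ≤ k → ‖(β ^ k - γ ^ k) * (y : ℂ) ^ k / k‖ ≤ ε := by
    intro k hk
    have hk' : (0 : ℝ) < k := by exact_mod_cast hk
    have b1 : ‖β ^ k - γ ^ k‖ ≤ k * ε := by
      rw [← Commute.mul_geom_sum₂ (Commute.all β γ), norm_mul, mul_comm]
      refine mul_le_mul ?_ hε (norm_nonneg _) hk'.le
      refine (norm_sum_le _ _).trans ?_
      refine (Finset.sum_le_card_nsmul _ _ 1 fun i _ => ?_).trans (by simp)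
      rw [norm_mul, norm_pow, norm_pow]
      exact mul_le_one₀ (pow_le_one₀ (norm_nonneg _) (by linarith)) (by positivity)
        (pow_le_one₀ (norm_nonneg _) hg)
    rw [norm_div, norm_mul, norm_pow, Complex.norm_natCast, div_le_iff₀ hk']
    have := mul_le_mul b1 (pow_le_one₀ (n := k) (norm_nonneg _) hy') (by positivity)
      (mul_nonneg hk'.le ((norm_nonneg _).trans hε))
    linarith
  have e : Real.log ‖1 + β * y‖ - (γ.re * y - (γ ^ 2).re / 2 * y ^ 2 + (γ ^ 3).re / 3 * y ^ 3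
      - (γ ^ 4).re / 4 * y ^ 4 + (γ ^ 5).re / 5 * y ^ 5 - (γ ^ 6).re / 6 * y ^ 6
      + (γ ^ 7).re / 7 * y ^ 7) = ((log (1 + β * y) - logTaylor (7 + 1) (β * y))
      + ((β ^ 1 - γ ^ 1) * (y : ℂ) ^ 1 / (1 : ℕ) - (β ^ 2 - γ ^ 2) * (y : ℂ) ^ 2 / (2 : ℕ)
      + (β ^ 3 - γ ^ 3) * (y : ℂ) ^ 3 / (3 : ℕ) - (β ^ 4 - γ ^ 4) * (y : ℂ) ^ 4 / (4 : ℕ)
      + (β ^ 5 - γ ^ 5) * (y : ℂ) ^ 5 / (5 : ℕ) - (β ^ 6 - γ ^ 6) * (y : ℂ) ^ 6 / (6 : ℕ)
      + (β ^ 7 - γ ^ 7) * (y : ℂ) ^ 7 / (7 : ℕ))).re := by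
    have e1 : (log (1 + β * y) - logTaylor (7 + 1) (β * y))
      + ((β ^ 1 - γ ^ 1) * (y : ℂ) ^ 1 / (1 : ℕ) - (β ^ 2 - γ ^ 2) * (y : ℂ) ^ 2 / (2 : ℕ)
      + (β ^ 3 - γ ^ 3) * (y : ℂ) ^ 3 / (3 : ℕ) - (β ^ 4 - γ ^ 4) * (y : ℂ) ^ 4 / (4 : ℕ)
      + (β ^ 5 - γ ^ 5) * (y : ℂ) ^ 5 / (5 : ℕ) - (β ^ 6 - γ ^ 6) * (y : ℂ) ^ 6 / (6 : ℕ)
      + (β ^ 7 - γ ^ 7) * (y : ℂ) ^ 7 / (7 : ℕ)) = log (1 + β * y) -
        (γ * (y : ℝ) - γ ^ 2 * ((y ^ 2 / 2 : ℝ) : ℂ) + γ ^ 3 * ((y ^ 3 / 3 : ℝ) : ℂ)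
        - γ ^ 4 * ((y ^ 4 / 4 : ℝ) : ℂ) + γ ^ 5 * ((y ^ 5 / 5 : ℝ) : ℂ)
        - γ ^ 6 * ((y ^ 6 / 6 : ℝ) : ℂ) + γ ^ 7 * ((y ^ 7 / 7 : ℝ) : ℂ)) := by
      simp only [logTaylor, Finset.sum_range_succ, Finset.sum_range_zero]
      push_cast
      ring
    rw [e1]
    simp only [Complex.sub_re, Complex.add_re, Complex.re_mul_ofReal, Complex.log_re]
    ring
  rw [e]
  refine (Complex.abs_re_le_norm _).trans ((norm_add_le _ _).trans ?_)
  have d1 := hd 1 le_rfl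
  have d2 := hd 2 (by norm_num)
  have d3 := hd 3 (by norm_num)
  have d4 := hd 4 (by norm_num)
  have d5 := hd 5 (by norm_num)
  have d6 := hd 6 (by norm_num)
  have d7 := hd 7 (by norm_num)
  refine add_le_add (h1.trans h2) ?_
  refine (norm_add_le _ _).trans ?_
  refine (add_le_add_left (norm_sub_le _ _) _).trans ?_
  refine (add_le_add_left (add_le_add_left (norm_add_le _ _) _) _).trans ?_
  refine (add_le_add_left (add_le_add_left (add_le_add_left (norm_sub_le _ _) _) _) _).trans ?_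
  have t1 := norm_add_le ((β ^ 1 - γ ^ 1) * (y : ℂ) ^ 1 / (1 : ℕ)
    - (β ^ 2 - γ ^ 2) * (y : ℂ) ^ 2 / (2 : ℕ)) ((β ^ 3 - γ ^ 3) * (y : ℂ) ^ 3 / (3 : ℕ))
  have t2 := norm_sub_le ((β ^ 1 - γ ^ 1) * (y : ℂ) ^ 1 / (1 : ℕ))
    ((β ^ 2 - γ ^ 2) * (y : ℂ) ^ 2 / (2 : ℕ))
  linarith

/-- one term of the sum on a box with centre `m / sg` and radius `rho / sg` -/
def step (sg m : ℤ) (rho : ℕ) (t : Tm) (c0 s1 s2 s3 s4 s5 s6 s7 : ℤ) (e : ℕ)
    (cont : ℤ → ℤ → ℤ → ℤ → ℤ → ℤ → ℤ → ℤ → ℕ → Bool) : Bool :=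
  Tm.rec (fun k a b c d =>
    frcI (Int.add (Int.mul a sg) (Int.mul c m)) fun wr =>
    frcI (Int.add (Int.mul b sg) (Int.mul d m)) fun wi =>
    frcI (Int.mul c (Int.ofNat rho)) fun vr =>
    frcI (Int.mul d (Int.ofNat rho)) fun vi =>
    frc (nsq wr wi) fun N0 =>
    frc (Nat.add (Nat.div (Nat.mul 1099511627776 (nsq vr vi)) N0) 1) fun q =>
    cond (Nat.blt 0 N0 && Nat.ble q 274877906944)
      (frcI (Int.ediv (Int.mul 1099511627776 (Int.add (Int.mul vr wr) (Int.mul vi wi)))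
        (Int.ofNat N0)) fun x1 =>
       frcI (Int.ediv (Int.mul 1099511627776 (Int.sub (Int.mul vi wr) (Int.mul vr wi)))
        (Int.ofNat N0)) fun y1 =>
       frcI (Int.sub (Int.mul x1 x1) (Int.mul y1 y1)) fun x2 =>
       frcI (Int.mul 2 (Int.mul x1 y1)) fun y2 =>
       frcI (Int.sub (Int.mul x2 x1) (Int.mul y2 y1)) fun x3 =>
       frcI (Int.add (Int.mul x2 y1) (Int.mul y2 x1)) fun y3 =>
       frcI (Int.sub (Int.mul x2 x2) (Int.mul y2 y2)) fun x4 =>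
       frcI (Int.mul 2 (Int.mul x2 y2)) fun y4 =>
       frcI (Int.add c0 (klg k N0)) fun c0' =>
       frcI (Int.add s1 (Int.mul k x1)) fun s1' =>
       frcI (Int.add s2 (Int.mul k x2)) fun s2' =>
       frcI (Int.add s3 (Int.mul k x3)) fun s3' =>
       frcI (Int.add s4 (Int.mul k x4)) fun s4' =>
       frcI (Int.add s5 (Int.mul k (Int.sub (Int.mul x3 x2) (Int.mul y3 y2)))) fun s5' =>
       frcI (Int.add s6 (Int.mul k (Int.sub (Int.mul x3 x3) (Int.mul y3 y3)))) fun s6' =>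
       frcI (Int.add s7 (Int.mul k (Int.sub (Int.mul x4 x3) (Int.mul y4 y3)))) fun s7' =>
       frc (Nat.add e (Nat.mul k.natAbs (Nat.add (Nat.div (Nat.pow q 4) (2 ^ 122)) 15))) fun e' =>
       cont c0' s1' s2' s3' s4' s5' s6' s7' e')
      (cond (decide (0 ≤ k))
        (frcI (Int.add c0 (klg k (Nat.add (Nat.add (nsq (Int.sub wr vr) (Int.sub wi vi))
          (nsq (Int.add wr vr) (Int.add wi vi))) 1))) fun c0' => cont c0' s1 s2 s3 s4 s5 s6 s7 e)
        false)) t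

/-- the scaled value -/
def Tm.sv (t : Tm) (sg m : ℤ) (rho : ℕ) (y : ℝ) : ℂ :=
  (t.a + t.b * I) * sg + (t.c + t.d * I) * (m + rho * y)

theorem floor_close (p : ℤ) (N : ℕ) (hN : 0 < N) :
    |(p : ℝ) / N - ((1099511627776 * p / (N : ℤ) : ℤ) : ℝ) / 2 ^ 40| ≤ 1 / 2 ^ 40 := by
  have hN' : (0 : ℝ) < N := by exact_mod_cast hN
  have h1 := Int.ediv_mul_le (1099511627776 * p) (b := (N : ℤ)) (by omega)
  have h2 := Int.lt_ediv_add_one_mul_self (1099511627776 * p) (b := (N : ℤ)) (by omega)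
  generalize 1099511627776 * p / (N : ℤ) = z at h1 h2
  have h1' : (z : ℝ) * N ≤ 1099511627776 * p := by exact_mod_cast h1
  have h2' : (1099511627776 : ℝ) * p ≤ (z + 1) * N := by exact_mod_cast h2.le
  have e : (p : ℝ) / N - z / 2 ^ 40 = (1099511627776 * p - z * N) / (N * 2 ^ 40) := by
    field_simp
    ring
  rw [e, abs_div, abs_of_pos (by positivity : (0 : ℝ) < N * 2 ^ 40), abs_of_nonneg (by linarith),
    div_le_div_iff₀ (by positivity) (by positivity)]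
  nlinarith

theorem step_sound {sg m : ℤ} {rho : ℕ} {t : Tm} {c0 s1 s2 s3 s4 s5 s6 s7 : ℤ} {e : ℕ}
    {cont : ℤ → ℤ → ℤ → ℤ → ℤ → ℤ → ℤ → ℤ → ℕ → Bool}
    (h : step sg m rho t c0 s1 s2 s3 s4 s5 s6 s7 e cont = true) {y : ℝ} (hy : |y| ≤ 1)
    (h0 : t.sv sg m rho y ≠ 0) :
    ∃ (c0' s1' s2' s3' s4' s5' s6' s7' : ℤ) (e' : ℕ),
      cont c0' s1' s2' s3' s4' s5' s6' s7' e' = true ∧
      2 * (t.k * Real.log ‖t.sv sg m rho y‖ * 2 ^ 40) + c0 + 2 * (polyS s1 s2 s3 s4 s5 s6 s7 y + e)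
        ≤ c0' + 2 * (polyS s1' s2' s3' s4' s5' s6' s7' y + e') := by
  obtain ⟨k, a, b, c, d⟩ := t
  simp only [step, frc_eq, frcI_eq, Int.add_def, Int.mul_def, isub, iediv, ndiv, Nat.add_eq,
    Nat.mul_eq, Int.ofNat_eq_natCast, Nat.pow_eq] at h
  have hsv : Tm.sv ⟨k, a, b, c, d⟩ sg m rho y = (((a * sg + c * m : ℤ) : ℂ)
      + ((b * sg + d * m : ℤ) : ℂ) * I) + (((c * rho : ℤ) : ℂ) + ((d * rho : ℤ) : ℂ) * I) * y := by
    simp only [Tm.sv]; push_cast; ring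
  rw [hsv] at h0 ⊢
  generalize a * sg + c * m = wr at h h0 ⊢
  generalize b * sg + d * m = wi at h h0 ⊢
  generalize c * (rho : ℤ) = vr at h h0 ⊢
  generalize d * (rho : ℤ) = vi at h h0 ⊢
  have hN := nsq_cast wr wi
  have hV := nsq_cast vr vi
  set w : ℂ := (wr : ℂ) + wi * I with hw
  set v : ℂ := (vr : ℂ) + vi * I with hv
  cases hc : (Nat.blt 0 (nsq wr wi) &&
      Nat.ble (1099511627776 * nsq vr vi / nsq wr wi + 1) 274877906944) with
  | true =>
    rw [hc, cond_true] at h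
    refine ⟨_, _, _, _, _, _, _, _, _, h, ?_⟩
    simp only [Bool.and_eq_true, Nat.blt_eq, Nat.ble_eq] at hc
    obtain ⟨hN0, hq⟩ := hc
    have hN0' : (0 : ℝ) < nsq wr wi := by exact_mod_cast hN0
    have hw0 : w ≠ 0 := by
      intro h1; rw [h1] at hN; simp at hN; omega
    have f1 := floor_close (vr * wr + vi * wi) _ hN0
    have f2 := floor_close (vi * wr - vr * wi) _ hN0
    have hq1 := Nat.lt_div_mul_add (a := 1099511627776 * nsq vr vi) hN0
    generalize 1099511627776 * (vr * wr + vi * wi) / (nsq wr wi : ℤ) = x1 at f1 ⊢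
    generalize 1099511627776 * (vi * wr - vr * wi) / (nsq wr wi : ℤ) = y1 at f2 ⊢
    have hq4 := Nat.lt_div_mul_add (a := (1099511627776 * nsq vr vi / nsq wr wi + 1) ^ 4)
      (b := 2 ^ 122) (by positivity)
    have hq1' : (1099511627776 : ℝ) * nsq vr vi ≤
        ((1099511627776 * nsq vr vi / nsq wr wi + 1 : ℕ) : ℝ) * nsq wr wi := by
      have : 1099511627776 * nsq vr vi ≤ (1099511627776 * nsq vr vi / nsq wr wi + 1) * nsq wr wi := by
        rw [add_mul, one_mul]; exact hq1.le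
      exact_mod_cast this
    generalize 1099511627776 * nsq vr vi / nsq wr wi + 1 = q at hq hq4 hq1' ⊢
    generalize q ^ 4 / 2 ^ 122 = r at hq4 ⊢
    have hβ : ‖v / w‖ ^ 2 ≤ q / 2 ^ 40 := by
      rw [norm_div, div_pow, ← hN, ← hV, div_le_div_iff₀ hN0' (by positivity)]
      norm_num
      linarith
    have hq' : (q : ℝ) ≤ 274877906944 := by exact_mod_cast hq
    have hβ' : ‖v / w‖ ^ 2 ≤ 1 / 4 := hβ.trans (by rw [div_le_iff₀ (by positivity)]; linarith)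
    set γ : ℂ := ((x1 : ℂ) + y1 * I) / 2 ^ 40 with hγ
    have hvw : v / w = (((vr * wr + vi * wi : ℤ) : ℝ) / nsq wr wi : ℝ)
        + (((vi * wr - vr * wi : ℤ) : ℝ) / nsq wr wi : ℝ) * I := by
      have hn : ((nsq wr wi : ℝ) : ℂ) = (wr : ℂ) ^ 2 + wi ^ 2 := by
        simp only [nsq, Nat.add_eq, Nat.mul_eq]
        push_cast
        have e1 : ((wr.natAbs : ℂ)) * wr.natAbs = wr ^ 2 := by
          have := congrArg (fun z : ℤ => (z : ℂ)) (Int.natAbs_mul_self (a := wr))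
          simp only [Int.cast_natCast, Nat.cast_mul, Int.cast_mul] at this
          rw [sq]; exact this
        have e2 : ((wi.natAbs : ℂ)) * wi.natAbs = wi ^ 2 := by
          have := congrArg (fun z : ℤ => (z : ℂ)) (Int.natAbs_mul_self (a := wi))
          simp only [Int.cast_natCast, Nat.cast_mul, Int.cast_mul] at this
          rw [sq]; exact this
        rw [e1, e2]
      have hn0 : ((nsq wr wi : ℝ) : ℂ) ≠ 0 := by exact_mod_cast hN0'.ne'
      rw [div_eq_iff hw0]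
      push_cast at hn hn0 ⊢
      field_simp
      rw [hn, hw, hv]
      linear_combination (-(vi * wr * wi - vr * wi ^ 2) * I - (vi * wr - vr * wi) * wi
        + (vi * wr * wi - vr * wi ^ 2) * I) * I_sq
    have hε : ‖v / w - γ‖ ≤ 2 / 2 ^ 40 := by
      have : v / w - γ = ((((vr * wr + vi * wi : ℤ) : ℝ) / nsq wr wi - x1 / 2 ^ 40 : ℝ) : ℂ)
          + ((((vi * wr - vr * wi : ℤ) : ℝ) / nsq wr wi - y1 / 2 ^ 40 : ℝ) : ℂ) * I := by
        rw [hvw, hγ]; push_cast; ring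
      rw [this]
      refine (norm_add_le _ _).trans ?_
      rw [norm_mul, Complex.norm_I, mul_one, Complex.norm_real, Complex.norm_real,
        Real.norm_eq_abs, Real.norm_eq_abs]
      linarith
    have hT := log_taylor (v / w) γ y _ hy hβ' hε (by norm_num)
    have hlog : Real.log ‖w + v * y‖ = Real.log (nsq wr wi) / 2 + Real.log ‖1 + v / w * y‖ := by
      have e1 : w + v * y = w * (1 + v / w * y) := by field_simp
      have e2 : 1 + v / w * y ≠ 0 := by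
        intro h1; rw [e1, h1, mul_zero] at h0; exact h0 rfl
      rw [e1, norm_mul, Real.log_mul (norm_ne_zero_iff.2 hw0) (norm_ne_zero_iff.2 e2), hN,
        Real.log_pow]
      push_cast
      ring
    have hk := le_klg k (n := nsq wr wi) hN0
    have hr : (‖v / w‖ ^ 2) ^ 4 / 4 * 2 ^ 40 ≤ r + 1 := by
      have a1 : (‖v / w‖ ^ 2) ^ 4 ≤ (q / 2 ^ 40) ^ 4 := pow_le_pow_left₀ (sq_nonneg _) hβ 4
      have a2 : (q : ℝ) ^ 4 ≤ r * 2 ^ 122 + 2 ^ 122 := by exact_mod_cast hq4.le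
      rw [div_pow] at a1
      have a3 : (q : ℝ) ^ 4 / (2 ^ 40) ^ 4 ≤ (r + 1) / 2 ^ 38 := by
        rw [div_le_div_iff₀ (by positivity) (by positivity)]
        norm_num at a2 ⊢
        linarith
      norm_num at a1 a3 ⊢
      linarith
    have g1 : γ.re = x1 / 2 ^ 40 := by
      have : γ = ((x1 / 2 ^ 40 : ℝ) : ℂ) + ((y1 / 2 ^ 40 : ℝ) : ℂ) * I := by
        rw [hγ]; push_cast; ring
      rw [this]; simp only [add_re, ofReal_re, mul_re, I_re, mul_zero, ofReal_im, I_im, mul_one,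
        sub_self, add_zero]
    have g2 : γ.im = y1 / 2 ^ 40 := by
      have : γ = ((x1 / 2 ^ 40 : ℝ) : ℂ) + ((y1 / 2 ^ 40 : ℝ) : ℂ) * I := by
        rw [hγ]; push_cast; ring
      rw [this]; simp only [add_im, ofReal_re, mul_im, I_re, mul_zero, ofReal_im, I_im, mul_one,
        zero_add, add_zero]
    have hP : polyS ((s1 + k * x1 : ℤ) : ℝ) ((s2 + k * (x1 * x1 - y1 * y1) : ℤ) : ℝ)
        ((s3 + k * ((x1 * x1 - y1 * y1) * x1 - 2 * (x1 * y1) * y1) : ℤ) : ℝ)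
        ((s4 + k * ((x1 * x1 - y1 * y1) * (x1 * x1 - y1 * y1)
          - 2 * (x1 * y1) * (2 * (x1 * y1))) : ℤ) : ℝ)
        ((s5 + k * (((x1 * x1 - y1 * y1) * x1 - 2 * (x1 * y1) * y1) * (x1 * x1 - y1 * y1) -
          ((x1 * x1 - y1 * y1) * y1 + 2 * (x1 * y1) * x1) * (2 * (x1 * y1))) : ℤ) : ℝ)
        ((s6 + k * (((x1 * x1 - y1 * y1) * x1 - 2 * (x1 * y1) * y1) *
          ((x1 * x1 - y1 * y1) * x1 - 2 * (x1 * y1) * y1) -
          ((x1 * x1 - y1 * y1) * y1 + 2 * (x1 * y1) * x1) *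
          ((x1 * x1 - y1 * y1) * y1 + 2 * (x1 * y1) * x1)) : ℤ) : ℝ)
        ((s7 + k * (((x1 * x1 - y1 * y1) * (x1 * x1 - y1 * y1) - 2 * (x1 * y1) * (2 * (x1 * y1))) *
          ((x1 * x1 - y1 * y1) * x1 - 2 * (x1 * y1) * y1) -
          2 * ((x1 * x1 - y1 * y1) * (2 * (x1 * y1))) *
          ((x1 * x1 - y1 * y1) * y1 + 2 * (x1 * y1) * x1)) : ℤ) : ℝ) y =
        polyS s1 s2 s3 s4 s5 s6 s7 y + k * (γ.re * y - (γ ^ 2).re / 2 * y ^ 2
          + (γ ^ 3).re / 3 * y ^ 3 - (γ ^ 4).re / 4 * y ^ 4 + (γ ^ 5).re / 5 * y ^ 5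
          - (γ ^ 6).re / 6 * y ^ 6 + (γ ^ 7).re / 7 * y ^ 7) * 2 ^ 40 := by
      simp only [pow_succ γ, pow_zero γ, one_mul, mul_re, mul_im, g1, g2, polyS]
      push_cast
      ring
    rw [hP, hlog]
    push_cast
    generalize γ.re * y - (γ ^ 2).re / 2 * y ^ 2
          + (γ ^ 3).re / 3 * y ^ 3 - (γ ^ 4).re / 4 * y ^ 4 + (γ ^ 5).re / 5 * y ^ 5
          - (γ ^ 6).re / 6 * y ^ 6 + (γ ^ 7).re / 7 * y ^ 7 = PP at hT ⊢
    have hfin : k * (Real.log ‖1 + v / w * y‖ - PP) * 2 ^ 40 ≤ |(k : ℝ)| * (r + 15) := by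
      have b1 : k * (Real.log ‖1 + v / w * y‖ - PP) ≤
          |(k : ℝ)| * ((‖v / w‖ ^ 2) ^ 4 / 4 + 7 * (2 / 2 ^ 40)) := by
        refine (le_abs_self _).trans ?_
        rw [abs_mul]
        exact mul_le_mul_of_nonneg_left hT (abs_nonneg _)
      have b2 : |(k : ℝ)| * (((‖v / w‖ ^ 2) ^ 4 / 4 + 7 * (2 / 2 ^ 40)) * 2 ^ 40) ≤
          |(k : ℝ)| * (r + 15) := by
        refine mul_le_mul_of_nonneg_left ?_ (abs_nonneg _)
        norm_num at hr ⊢
        linarith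
      have b3 := mul_le_mul_of_nonneg_right b1 (by positivity : (0 : ℝ) ≤ 2 ^ 40)
      linarith
    simp only [Nat.cast_natAbs, Int.cast_abs]
    linarith
  | false =>
    rw [hc, cond_false] at h
    by_cases hk : 0 ≤ k
    · rw [decide_eq_true hk, cond_true] at h
      refine ⟨_, _, _, _, _, _, _, _, _, h, ?_⟩
      have hk1 := le_klg k (n := nsq (wr - vr) (wi - vi) + nsq (wr + vr) (wi + vi) + 1) (by omega)
      have hk' : (0 : ℝ) ≤ k := by exact_mod_cast hk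
      have n1 := nsq_cast (wr - vr) (wi - vi)
      have n2 := nsq_cast (wr + vr) (wi + vi)
      have e1 : ((wr - vr : ℤ) : ℂ) + ((wi - vi : ℤ) : ℂ) * I = w - v := by
        rw [hw, hv]; push_cast; ring
      have e2 : ((wr + vr : ℤ) : ℂ) + ((wi + vi : ℤ) : ℂ) * I = w + v := by
        rw [hw, hv]; push_cast; ring
      rw [e1] at n1
      rw [e2] at n2
      have hle : ‖w + v * y‖ ^ 2 ≤
          ((nsq (wr - vr) (wi - vi) + nsq (wr + vr) (wi + vi) + 1 : ℕ) : ℝ) := by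
        push_cast
        rw [n1, n2]
        obtain ⟨y1, y2⟩ := abs_le.1 hy
        have e3 : w + v * y = (((1 - y) / 2 : ℝ) : ℂ) * (w - v) + (((1 + y) / 2 : ℝ) : ℂ) * (w + v) := by
          push_cast; ring
        have e4 : ‖w + v * y‖ ≤ (1 - y) / 2 * ‖w - v‖ + (1 + y) / 2 * ‖w + v‖ := by
          rw [e3]
          refine (norm_add_le _ _).trans ?_
          rw [norm_mul, norm_mul, Complex.norm_real, Complex.norm_real, Real.norm_eq_abs,
            Real.norm_eq_abs, abs_of_nonneg (by linarith), abs_of_nonneg (by linarith)]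
        have e5 := pow_le_pow_left₀ (norm_nonneg _) e4 2
        have e6 : ((1 - y) / 2) ^ 2 + ((1 + y) / 2) ^ 2 ≤ 1 := by nlinarith
        nlinarith [sq_nonneg ((1 - y) / 2 * ‖w + v‖ - (1 + y) / 2 * ‖w - v‖),
          mul_le_mul_of_nonneg_right e6 (add_nonneg (sq_nonneg ‖w - v‖) (sq_nonneg ‖w + v‖))]
      have hl := Real.log_le_log (pow_pos (norm_pos_iff.2 h0) 2) hle
      rw [Real.log_pow] at hl
      have := mul_le_mul_of_nonneg_left hl hk'
      push_cast at this hk1 ⊢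
      linarith
    · rw [decide_eq_false hk, cond_false] at h
      exact absurd h (by simp)

def run (sg m : ℤ) (rho : ℕ) (M : ℤ) (T : List Tm) :
    ℤ → ℤ → ℤ → ℤ → ℤ → ℤ → ℤ → ℤ → ℕ → Bool :=
  List.rec (motive := fun _ => ℤ → ℤ → ℤ → ℤ → ℤ → ℤ → ℤ → ℤ → ℕ → Bool)
    (fun c0 s1 s2 s3 s4 s5 s6 s7 e => fin M c0 s1 s2 s3 s4 s5 s6 s7 e)
    (fun t _ ih c0 s1 s2 s3 s4 s5 s6 s7 e => step sg m rho t c0 s1 s2 s3 s4 s5 s6 s7 e ih) T

theorem run_sound {sg m : ℤ} {rho : ℕ} {M : ℤ} {y : ℝ} (hy : |y| ≤ 1) (T : List Tm) :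
    ∀ {c0 s1 s2 s3 s4 s5 s6 s7 : ℤ} {e : ℕ}, run sg m rho M T c0 s1 s2 s3 s4 s5 s6 s7 e = true →
      (∀ t ∈ T, t.sv sg m rho y ≠ 0) →
      2 * ((T.map fun t => (t.k : ℝ) * Real.log ‖t.sv sg m rho y‖).sum * 2 ^ 40) + c0
        + 2 * (polyS s1 s2 s3 s4 s5 s6 s7 y + e) ≤ 2 * M := by
  induction T with
  | nil =>
    intro c0 s1 s2 s3 s4 s5 s6 s7 e h _
    have := fin_sound (M := M) h hy
    simpa using this
  | cons t T ih =>
    intro c0 s1 s2 s3 s4 s5 s6 s7 e h h0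
    obtain ⟨c0', s1', s2', s3', s4', s5', s6', s7', e', h1, h2⟩ :=
      step_sound (cont := run sg m rho M T) h hy (h0 t (by simp))
    have h3 := ih h1 fun t' ht' => h0 t' (by simp [ht'])
    simp only [List.map_cons, List.sum_cons]
    linarith

theorem sum_sv (sg : ℕ) (hsg : 0 < sg) (m : ℤ) (rho : ℕ) (y x : ℝ) (hx : x * sg = m + rho * y)
    (T : List Tm) (h0 : ∀ t ∈ T, t.val x ≠ 0) :
    (∀ t ∈ T, t.sv sg m rho y ≠ 0) ∧
    (T.map fun t => (t.k : ℝ) * Real.log ‖t.sv sg m rho y‖).sum = FT T x + sk T * Real.log sg := by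
  have hsg' : (sg : ℂ) ≠ 0 := by exact_mod_cast hsg.ne'
  have e : ∀ t : Tm, t.sv sg m rho y = t.val x * sg := by
    intro t
    have : ((m : ℂ) + rho * y) = x * sg := by exact_mod_cast hx.symm
    simp only [Tm.sv, Tm.val, this]
    push_cast
    ring
  refine ⟨fun t ht => by rw [e]; exact mul_ne_zero (h0 t ht) hsg', ?_⟩
  induction T with
  | nil => simp [FT, sk]
  | cons t T ih =>
    have := ih fun t' ht' => h0 t' (by simp [ht'])
    simp only [FT, sk, List.map_cons, List.sum_cons] at this ⊢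
    rw [this, e, norm_mul, Real.log_mul (norm_ne_zero_iff.2 (h0 t (by simp)))
      (norm_ne_zero_iff.2 hsg'), Complex.norm_natCast]
    push_cast
    ring

/-- boxes between consecutive break points `2 X / sg`, given by the lengths -/
def cover (sg : ℕ) (M : ℤ) (T : List Tm) (l : List ℕ) : ℤ → Bool :=
  List.rec (motive := fun _ => ℤ → Bool) (fun _ => true)
    (fun r _ ih X => frcI (Int.add X (Int.ofNat r)) fun X' =>
      frcI (Int.add X X') fun m =>
      cond (run (Int.ofNat sg) m r M T 0 0 0 0 0 0 0 0 0) (ih X') false) l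

theorem cover_sound {sg : ℕ} (hsg : 0 < sg) {M : ℤ} {T : List Tm} (l : List ℕ) :
    ∀ {X : ℤ}, cover sg M T l X = true → ∀ x : ℝ, 2 * X < x * sg → x * sg ≤ 2 * (X + l.sum) →
      (∀ t ∈ T, t.val x ≠ 0) → (FT T x + sk T * Real.log sg) * 2 ^ 40 ≤ M := by
  induction l with
  | nil =>
    intro X _ x h1 h2 _
    simp at h2
    linarith
  | cons r l ih =>
    intro X h x h1 h2 h0
    have h' : cond (run (sg : ℤ) (X + (X + r)) r M T 0 0 0 0 0 0 0 0 0) (cover sg M T l (X + r))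
        false = true := by
      simpa only [cover, frcI_eq, Int.add_def, Int.ofNat_eq_natCast] using h
    cases hr : run (sg : ℤ) (X + (X + r)) r M T 0 0 0 0 0 0 0 0 0 with
    | false => rw [hr] at h'; exact absurd h' (by simp)
    | true =>
      rw [hr, cond_true] at h'
      rcases le_or_gt (x * sg) (2 * (X + r)) with h3 | h3
      · have hr0 : (0 : ℝ) < r := by linarith
        have hy : |(x * sg - (X + (X + r) : ℤ)) / r| ≤ 1 := by
          rw [abs_div, abs_of_pos hr0, div_le_one hr0, abs_le]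
          push_cast
          constructor <;> linarith
        obtain ⟨a1, a2⟩ := sum_sv sg hsg (X + (X + r)) r _ x
          (by field_simp; ring : x * sg = ((X + (X + r) : ℤ) : ℝ) +
            r * ((x * sg - (X + (X + r) : ℤ)) / r)) T h0
        have := run_sound hy T hr a1
        rw [a2] at this
        simp only [polyS, Int.cast_zero, Nat.cast_zero] at this
        linarith
      · refine ih h' x (by push_cast; linarith) ?_ h0
        push_cast [List.sum_cons] at h2 ⊢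
        linarith

/-! ### atoms -/

/-- the atom `(p + q i) / 2^16` with weight `w / Q` -/
structure At where
  p : ℤ
  q : ℤ
  w : ℤ

def QQ : ℝ := 37748736

def At.z (a : At) : ℂ := ((a.p : ℂ) + a.q * I) / 65536

def toL (L : List At) : List (ℂ × ℝ) := L.map fun a => (a.z, (a.w : ℝ) / QQ)

def sw (L : List At) : ℤ := (L.map fun a => a.w).sum

def inD (L : List At) : Bool := L.all fun a => Nat.blt (nsq a.p a.q) 4294967296

theorem norm_lt_of {a : At} (h : nsq a.p a.q < 4294967296) : ‖a.z‖ < 1 := by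
  have h1 := nsq_cast a.p a.q
  have h2 : (nsq a.p a.q : ℝ) < 4294967296 := by exact_mod_cast h
  rw [At.z, norm_div, div_lt_one (by simp)]
  have : ‖(65536 : ℂ)‖ = 65536 := by simp
  rw [this]
  nlinarith [norm_nonneg ((a.p : ℂ) + a.q * I)]

theorem inD_sound {L : List At} (h : inD L = true) : ∀ a ∈ L, ‖a.z‖ < 1 := by
  intro a ha
  have := List.all_eq_true.1 h a ha
  exact norm_lt_of (by simpa using this)

theorem toL_norm {L : List At} (h : inD L = true) : ∀ p ∈ toL L, ‖p.1‖ < 1 := by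
  intro p hp
  obtain ⟨a, ha, rfl⟩ := List.mem_map.1 hp
  exact inD_sound h a ha

/-- bound for one pair -/
def enP (a b : At) : ℤ :=
  At.rec (fun p q w => At.rec (fun p' q' w' =>
    frcI (Int.mul p p') fun u => frcI (Int.mul q q') fun v =>
    frcI (Int.mul p q') fun r => frcI (Int.mul q p') fun s =>
    frc (Nat.mul (nsq (Int.sub 4294967296 (Int.add u v)) (Int.sub r s))
      (nsq (Int.sub 4294967296 (Int.sub u v)) (Int.neg (Int.add r s)))) fun N =>
    klg (Int.neg (Int.mul w w')) N) b) a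

def isum (l : List ℤ) : ℤ := List.rec 0 (fun a _ ih => frcI a fun a => frcI ih fun b => Int.add a b) l

theorem isum_eq (l : List ℤ) : isum l = l.sum := by
  induction l with
  | nil => rfl
  | cons a l ih =>
    have : isum (a :: l) = a + isum l := by simp only [isum, frcI_eq, Int.add_def]
    rw [this, ih, List.sum_cons]

def enU (L : List At) : ℤ := isum (L.map fun a => isum (L.map fun b => enP a b))

theorem one_sub_ne {u : ℂ} (h : ‖u‖ < 1) : 1 - u ≠ 0 := by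
  intro h1
  have : u = 1 := by linear_combination -h1
  rw [this] at h
  simp at h

theorem mul_lt {u v : ℂ} (h : ‖u‖ < 1) (h' : ‖v‖ ≤ 1) : ‖u * v‖ < 1 := by
  rw [norm_mul]
  exact mul_lt_one_of_nonneg_of_lt_one_left (norm_nonneg _) h h'

theorem enP_sound {a b : At} (ha : ‖a.z‖ < 1) (hb : ‖b.z‖ < 1) :
    (-(a.w * b.w * kap a.z b.z) - 32 * (a.w * b.w) * Real.log 2) * (4 * 2 ^ 40) ≤ (enP a b : ℝ) := by
  obtain ⟨p, q, w⟩ := a
  obtain ⟨p', q', w'⟩ := b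
  simp only [enP, frc_eq, frcI_eq, Int.add_def, Int.mul_def, isub, Nat.mul_eq]
  have n1 := nsq_cast (4294967296 - (p * p' + q * q')) (p * q' - q * p')
  have n2 := nsq_cast (4294967296 - (p * p' - q * q')) (Int.neg (p * q' + q * p'))
  have z1 := one_sub_ne (mul_lt ha (v := (starRingEnd ℂ) (At.z ⟨p', q', w'⟩)) (by simpa using hb.le))
  have z2 := one_sub_ne (mul_lt ha hb.le)
  have e1 : ((4294967296 - (p * p' + q * q') : ℤ) : ℂ) + ((p * q' - q * p' : ℤ) : ℂ) * I =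
      2 ^ 32 * (1 - At.z ⟨p, q, w⟩ * (starRingEnd ℂ) (At.z ⟨p', q', w'⟩)) := by
    simp only [At.z, map_div₀, map_add, map_mul, map_intCast, conj_I, map_ofNat]
    push_cast
    linear_combination (-(q : ℂ) * q') * I_sq
  have e2 : ((4294967296 - (p * p' - q * q') : ℤ) : ℂ) + ((Int.neg (p * q' + q * p') : ℤ) : ℂ) * I =
      2 ^ 32 * (1 - At.z ⟨p, q, w⟩ * At.z ⟨p', q', w'⟩) := by
    have : Int.neg (p * q' + q * p') = -(p * q' + q * p') := rfl
    rw [this]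
    simp only [At.z]
    push_cast
    linear_combination ((q : ℂ) * q') * I_sq
  rw [e1] at n1
  rw [e2] at n2
  have p1 := norm_pos_iff.2 z1
  have p2 := norm_pos_iff.2 z2
  have t2 : ‖(2 : ℂ) ^ 32‖ = 2 ^ 32 := by simp
  rw [norm_mul, t2] at n1 n2
  have hN : (0 : ℝ) < ((nsq (4294967296 - (p * p' + q * q')) (p * q' - q * p') *
      nsq (4294967296 - (p * p' - q * q')) (Int.neg (p * q' + q * p')) : ℕ) : ℝ) := by
    rw [Nat.cast_mul, n1, n2]; positivity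
  have hk := le_klg (Int.neg (w * w')) (n := nsq (4294967296 - (p * p' + q * q')) (p * q' - q * p') *
      nsq (4294967296 - (p * p' - q * q')) (Int.neg (p * q' + q * p'))) (by exact_mod_cast hN)
  refine le_trans (le_of_eq ?_) hk
  have : Int.neg (w * w') = -(w * w') := rfl
  rw [this, Nat.cast_mul, n1, n2, Real.log_mul (by positivity) (by positivity), Real.log_pow,
    Real.log_pow, Real.log_mul (by positivity) p1.ne', Real.log_mul (by positivity) p2.ne',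
    Real.log_pow, kap]
  push_cast
  ring

theorem enU_sound {L : List At} (h : inD L = true) :
    (En (toL L) * QQ ^ 2 - 32 * (sw L) ^ 2 * Real.log 2) * (4 * 2 ^ 40) ≤ (enU L : ℝ) := by
  have hL := inD_sound h
  have hQ : QQ ≠ 0 := by norm_num [QQ]
  have inner : ∀ a : At, ‖a.z‖ < 1 → ∀ L' : List At, (∀ b ∈ L', ‖b.z‖ < 1) →
      (-((toL L').map fun q => (a.w : ℝ) / QQ * q.2 * kap a.z q.1).sum * QQ ^ 2
        - 32 * (a.w * sw L') * Real.log 2) * (4 * 2 ^ 40) ≤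
      (((L'.map fun b => enP a b).sum : ℤ) : ℝ) := by
    intro a ha L' hL'
    induction L' with
    | nil => simp [toL, sw]
    | cons b L' ih =>
      have h1 := ih fun c hc => hL' c (by simp [hc])
      have h2 := enP_sound ha (hL' b (by simp))
      simp only [toL, sw, List.map_cons, List.sum_cons, Int.cast_add] at h1 ⊢
      have e : (a.w : ℝ) / QQ * (b.w / QQ) * kap a.z b.z * QQ ^ 2 = a.w * b.w * kap a.z b.z := by
        field_simp
      linarith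
  have outer : ∀ L' : List At, (∀ a ∈ L', ‖a.z‖ < 1) →
      (-((toL L').map fun p => ((toL L).map fun q => p.2 * q.2 * kap p.1 q.1).sum).sum * QQ ^ 2
        - 32 * (sw L' * sw L) * Real.log 2) * (4 * 2 ^ 40) ≤
      (((L'.map fun a => isum (L.map fun b => enP a b)).sum : ℤ) : ℝ) := by
    intro L' hL'
    induction L' with
    | nil => simp [toL, sw]
    | cons a L' ih =>
      have h1 := ih fun c hc => hL' c (by simp [hc])
      have h2 := inner a (hL' a (by simp)) L hL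
      have e : toL (a :: L') = (a.z, (a.w : ℝ) / QQ) :: toL L' := rfl
      have e' : sw (a :: L') = a.w + sw L' := by simp [sw]
      rw [e, e']
      simp only [List.map_cons, List.sum_cons, Int.cast_add, isum_eq] at h1 ⊢
      linarith
  have := outer L hL
  rw [enU, isum_eq, En, sq (sw L : ℝ)]
  exact this

end

end Vale.Agent.P030.CE
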