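import Mathlib

/-! Definitions for the irrationality of Catalan's constant (see notes/P030.md). -/

namespace Vale.Agent.P030

open Polynomial Finset

/-- Catalan's constant -/
noncomputable def GG : ℝ := ∑' j : ℕ, (-1) ^ j / (2 * (j : ℝ) + 1) ^ 2

/-- Taylor coefficients of `(1 - t) ^ (-1/2)` -/
def aa (l : ℕ) : ℚ := (Nat.centralBinom l : ℚ) / 4 ^ l

/-- `cc m = 2 * ∫ t in 0..1, t ^ (2m+1) / √(1 - t ^ 2)` -/
def cc (m : ℕ) : ℚ := 2 / ((2 * m + 1) * aa m)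

/-- `nu i = ∫ t in -1..1, sign t * t ^ i / √(1 - t ^ 2)` -/
def nu (i : ℕ) : ℚ := if i % 2 = 1 then cc (i / 2) else 0

def b0 (j : ℕ) : ℚ :=
  if j % 2 = 0 then aa (j / 2) * ∑ k ∈ range (j / 2), 1 / (2 * ((k : ℚ) + 1) ^ 2 * aa (k + 1))
  else cc (j / 2) * ∑ k ∈ range (j / 2 + 1), aa k / (2 * (k : ℚ) + 1)

def b1 (i : ℕ) : ℚ :=
  if i % 2 = 1 then aa (i / 2) * ∑ k ∈ range (i / 2), 1 / (2 * ((k : ℚ) + 1) ^ 2 * aa (k + 1) ^ 2)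
  else cc (i / 2 - 1) * ∑ k ∈ range (i / 2), 1 / (2 * (k : ℚ) + 1)

/-- rational part of `MM` -/
def mr : ℕ → ℕ → ℚ
  | 0, j => b0 j
  | i + 1, 0 => b1 (i + 1)
  | i + 1, j + 1 => mr i j - nu i / (j + 1)

/-- coefficient of `4 G` in `MM` -/
def mg (i j : ℕ) : ℚ := if j + 1 ≤ i ∧ (i - j - 1) % 2 = 0 then aa ((i - j - 1) / 2) else 0

/-- coefficient of `π ^ 2 / 4` in `MM` -/
def mz (i j : ℕ) : ℚ := if i ≤ j ∧ (j - i) % 2 = 0 then aa ((j - i) / 2) else 0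

def h1 (n : ℕ) : ℚ := ∑ k ∈ range n, 1 / ((k : ℚ) + 1)

def h2 (n : ℕ) : ℚ := ∑ k ∈ range n, 1 / ((k : ℚ) + 1) ^ 2

/-- rational part of `ZZ` -/
def zr (i j : ℕ) : ℚ := if i = j then - h2 i else (h1 j - h1 i) / ((j : ℚ) - i)

noncomputable def MM (i j : ℕ) : ℝ := ∑' k : ℕ, (nu (i + k) : ℝ) / ((j : ℝ) + k + 1)

noncomputable def ZZ (i j : ℕ) : ℝ := ∑' k : ℕ, 1 / (((i : ℝ) + k + 1) * ((j : ℝ) + k + 1))

/-- pairing of `t ^ A * Q (1 / t)` with `R (s)` through the table `m` -/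
noncomputable def pair {K : Type} [CommRing K] (m : ℕ → ℕ → K) (A : ℕ) (Q R : ℤ[X]) : K :=
  ∑ k ∈ range (A + 1), ∑ l ∈ range (A + 1), (Q.coeff k : K) * (R.coeff l : K) * m (A - k) l

/-- the bilinear form, with `g` in place of Catalan's constant -/
noncomputable def lam (g : ℚ) (A : ℕ) (P D R : ℤ[X]) : ℚ :=
  pair (fun i l => mr i l + 4 * g * mg i l) A P R - 3 / 2 * pair zr (A - 1) D R

noncomputable def QP (h : ℕ) (K : ℤ) : ℤ[X] :=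
  (X ^ 2 - 1) * (X - 1) ^ h * Chebyshev.U ℤ (K - 1)

noncomputable def QD (h : ℕ) (K : ℤ) : ℤ[X] := (X - 1) ^ h * Chebyshev.T ℤ K

noncomputable def col (a b j : ℕ) : ℤ[X] := X ^ (a + j) * (1 - X) ^ b

/-- row index -/
def KK (N r : ℕ) : ℤ := (r : ℤ) + 1 - 3 * N

noncomputable def Emat (g : ℚ) (N : ℕ) : Matrix (Fin (36 * N)) (Fin (36 * N)) ℚ :=
  Matrix.of fun r j =>
    lam g (49 * N) (QP (2 * N) (KK N r)) (QD (2 * N) (KK N r)) (col (6 * N) (2 * N) j)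

/-- the two other matrices of level one (`σ = 1` and `σ = -1`) -/
noncomputable def Bmat (σ : ℤ) : Matrix (Fin 36) (Fin 36) ℚ :=
  Matrix.of fun r j =>
    lam 0 49 ((X - 1) ^ 2 * (Chebyshev.T ℤ ((r : ℕ) - 2) - C σ * Chebyshev.T ℤ ((r : ℕ) - 3)))
      ((X - 1) ^ 2 * (Chebyshev.U ℤ ((r : ℕ) - 3) - C σ * Chebyshev.U ℤ ((r : ℕ) - 4))) (col 6 2 j)

/-! ### real place -/

noncomputable def tau (x : ℝ) : ℝ := 2 * x / (1 + x ^ 2)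

noncomputable def dtau (x : ℝ) : ℝ := 2 * (1 - x ^ 2) / (1 + x ^ 2) ^ 2

noncomputable def Phi (h c : ℕ) (K : ℤ) (x : ℝ) : ℝ :=
  -(tau x ^ c * (1 - tau x) ^ h *
    (if 0 < x then 1 / 4 * x ^ (-K) + 5 / 4 * x ^ K else 1 / 2 * x ^ (-K) - 1 / 2 * x ^ K)) * dtau x

noncomputable def Psi (a b j : ℕ) (z : ℝ) : ℝ := tau z ^ (a + j) * (1 - tau z) ^ b * dtau z

noncomputable def ker (x z : ℝ) : ℝ := 1 / (1 - tau x * tau z)

/-- Vandermonde product -/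
noncomputable def vdm {n : ℕ} (x : Fin n → ℝ) : ℝ := ∏ i, ∏ j ∈ Ioi i, (x j - x i)

/-- logarithm of the absolute value of the Vandermonde product -/
noncomputable def lv {n : ℕ} (x : Fin n → ℝ) : ℝ := ∑ i, ∑ j ∈ Ioi i, Real.log |x j - x i|

noncomputable def kap (a b : ℂ) : ℝ :=
  (Real.log ‖1 - a * (starRingEnd ℂ) b‖ + Real.log ‖1 - a * b‖) / 2

/-- energy of a list of weighted atoms -/
noncomputable def En (L : List (ℂ × ℝ)) : ℝ :=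
  -(L.map fun p => (L.map fun q => p.2 * q.2 * kap p.1 q.1).sum).sum

noncomputable def potC (L : List (ℂ × ℝ)) (t : ℝ) : ℝ :=
  (L.map fun p => p.2 * Real.log ‖1 - 2 * p.1 * (t : ℂ) + p.1 ^ 2‖).sum

noncomputable def potD (L : List (ℂ × ℝ)) (z : ℝ) : ℝ :=
  (L.map fun p => p.2 * Real.log ‖1 - p.1 * (z : ℂ)‖).sum

noncomputable def U1 (η : ℝ) (L0 L1 : List (ℂ × ℝ)) (x : ℝ) : ℝ :=
  (47 / 36 - η) * Real.log |tau x| + (2 / 36 - η) * Real.log (1 - tau x) + η * Real.log 2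
    - 33 / 36 * Real.log |x| + potC L0 (tau x) + potC L1 x

noncomputable def U2 (η : ℝ) (L0 L2 : List (ℂ × ℝ)) (z : ℝ) : ℝ :=
  6 / 36 * Real.log (tau z) + 2 / 36 * Real.log (1 - tau z) - η * Real.log (1 - z)
    - Real.log (1 + z ^ 2) - 2 * potD L0 z + 2 * potC L2 (2 * z - 1)

/-- extra potential of the second case -/
noncomputable def ex2 (x : ℝ) : ℝ :=
  -(1 / 6) * Real.log |x| + 1 / 2 * Real.log (1 + x ^ 2)
    + 3 * (1 / 6 * Real.log 2 - Real.log (1 + x ^ 2))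

/-- a certificate for the energy bound `E` with the extra potential `ex` -/
def Cert (E : ℝ) (ex : ℝ → ℝ) : Prop :=
  ∃ (η M1 M2 : ℝ) (L0 L1 L2 : List (ℂ × ℝ)), 0 < η ∧
    (∀ p ∈ L0, ‖p.1‖ < 1) ∧ (∀ p ∈ L1, ‖p.1‖ < 1) ∧ (∀ p ∈ L2, ‖p.1‖ < 1) ∧
    (∀ x : ℝ, -1 < x → x < 1 → x ≠ 0 → U1 η L0 L1 x + ex x ≤ M1) ∧
    (∀ z : ℝ, 0 < z → z < 1 → U2 η L0 L2 z ≤ M2) ∧
    M1 + M2 + En L0 + En L1 + 2 * En L2 - 2 * Real.log 2 ≤ E

end Vale.Agent.P030
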