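import Vale.Agent.P030.Energy
import Vale.Agent.P030.Cert
import Vale.Agent.P030.Int
import Vale.Agent.P030.Arith
import Vale.Agent.P030.NV

/-! Assembly. -/

namespace Vale.Agent.P030

open Finset Filter Topology MeasureTheory

theorem real_bound (g : ℚ) (hg : (g : ℝ) = GG) : ∀ᶠ N : ℕ in atTop,
    |((Emat g N).det : ℝ)| ≤ Real.exp (-(25042 / 10) * (N : ℝ) ^ 2) := by
  obtain ⟨C, N0, hC⟩ := energy _ cert1 cert2
  have hlog : ∀ᶠ N : ℕ in atTop, (|C| + 36) * (1 + Real.log N) ≤ 1 / 10 * N := by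
    have h1 : Tendsto (fun x : ℝ => (|C| + 36) * (x⁻¹ + Real.log x ^ 1 / (1 * x + 0))) atTop
        (𝓝 ((|C| + 36) * (0 + 0))) :=
      (tendsto_inv_atTop_zero.add (Real.tendsto_pow_log_div_mul_add_atTop 1 0 1 one_ne_zero)).const_mul _
    have h2 := (h1.comp tendsto_natCast_atTop_atTop).eventually
      (eventually_le_nhds (show (|C| + 36) * (0 + 0) < (1 / 10 : ℝ) by norm_num))
    filter_upwards [h2, eventually_gt_atTop 0] with N h3 h4
    have h5 : (0 : ℝ) < N := by exact_mod_cast h4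
    simp only [Function.comp, pow_one, one_mul, add_zero] at h3
    have e : (|C| + 36) * (1 + Real.log N) = (|C| + 36) * ((N : ℝ)⁻¹ + Real.log N / N) * N := by
      field_simp
    rw [e]
    exact mul_le_mul_of_nonneg_right h3 h5.le
  filter_upwards [hlog, eventually_ge_atTop N0, eventually_ge_atTop 1] with N h1 h2 h3
  have h4 := andreief (n := 36 * N) (Set.Ioo (-1 : ℝ) 1) (Set.Ioo (0 : ℝ) 1) measurableSet_Ioo
    measurableSet_Ioo (by simp) (by simp) (fun r => Phi (2 * N) (47 * N - 1) (KK N r))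
    (fun j => Psi (6 * N) (2 * N) j) ker (integrable_entry N) _ (hC N h2)
  have e : ((Emat g N).det : ℝ) = (Matrix.of fun r j : Fin (36 * N) => ∫ q : ℝ × ℝ,
      Phi (2 * N) (47 * N - 1) (KK N r) q.1 * ker q.1 q.2 * Psi (6 * N) (2 * N) j q.2
      ∂((volume.restrict (Set.Ioo (-1 : ℝ) 1)).prod (volume.restrict (Set.Ioo (0 : ℝ) 1)))).det := by
    rw [show ((Emat g N).det : ℝ) = (Rat.castHom ℝ) (Emat g N).det from rfl, RingHom.map_det]
    congr 1
    ext r j
    rw [Matrix.of_apply, ← entry_eq_integral, ← Emat_eq g hg]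
    rfl
  rw [e]
  refine h4.trans ?_
  have hv : ((volume (Set.Ioo (-1 : ℝ) 1)).toReal * (volume (Set.Ioo (0 : ℝ) 1)).toReal) = 2 := by
    simp
    norm_num
  have h6 : (2 : ℝ) ^ (36 * N) ≤ Real.exp (36 * N) := by
    have : (2 : ℝ) ≤ Real.exp 1 := by have := Real.add_one_le_exp (1 : ℝ); linarith
    calc (2 : ℝ) ^ (36 * N) ≤ Real.exp 1 ^ (36 * N) := pow_le_pow_left₀ (by norm_num) this _
      _ = _ := by rw [← Real.exp_nat_mul]; push_cast; ring_nf
  rw [hv]
  refine (mul_le_mul_of_nonneg_left h6 (Real.exp_pos _).le).trans ?_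
  rw [← Real.exp_add, Real.exp_le_exp]
  have h7 : (1 : ℝ) ≤ N := by exact_mod_cast h3
  have h8 : 0 ≤ Real.log N := Real.log_nonneg h7
  have h9 : C * (1 + Real.log N) ≤ |C| * (1 + Real.log N) :=
    mul_le_mul_of_nonneg_right (le_abs_self C) (by linarith)
  have h10 : C * (1 + Real.log N) + 36 ≤ 1 / 10 * N := by nlinarith
  nlinarith [mul_le_mul_of_nonneg_right h10 (by linarith : (0 : ℝ) ≤ N)]

theorem irrational_GG : Irrational GG := by
  rintro ⟨g, hg⟩
  obtain ⟨P0, hP⟩ := nonvanishing g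
  obtain ⟨N1, hN1⟩ := eventually_atTop.1 ((arith g).and (real_bound g hg))
  obtain ⟨p, hp, hlt, hmod⟩ := Nat.exists_prime_gt_modEq_one (k := 4) (max P0 N1) (by norm_num)
  have hne := hP p hp (lt_of_le_of_lt (le_max_left _ _) hlt) (by simpa [Nat.ModEq] using hmod)
  obtain ⟨h1, h2⟩ := hN1 p (le_of_lt (lt_of_le_of_lt (le_max_right _ _) hlt))
  have h3 := h1 hne
  have hpos : 0 < |((Emat g p).det : ℝ)| := abs_pos.2 (by exact_mod_cast hne)
  have h4 := (Real.log_le_iff_le_exp hpos).2 h2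
  have hp0 : (0 : ℝ) < p := by exact_mod_cast hp.pos
  nlinarith [sq_pos_of_pos hp0]

end Vale.Agent.P030
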